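import Mathlib

set_option autoImplicit false
set_option linter.all false

/-! Nontrivial elements of the derived series of a free group are long: the shortest nontrivial
element of the `d`-th derived subgroup has length at least `3 * 2 ^ d - 2`. -/

namespace Vale.Agent.P215.H891



section Cross

variable {α : Type} [DecidableEq α] (N : Subgroup (FreeGroup α)) [N.Normal] (x : α)

open Classical in
/-- The signed passages of a word through the edges `(q, x)` of the covering with the group `N`. -/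
noncomputable def cross : FreeGroup α →* (Multiplicative ℤ) ≀ᵣ (FreeGroup α ⧸ N) :=
  FreeGroup.lift fun y => ⟨fun q => if y = x ∧ q = 1 then Multiplicative.ofAdd (1 : ℤ) else 1,
    ((FreeGroup.of y : FreeGroup α) : FreeGroup α ⧸ N)⟩

/-- The signed number of passages of `w` through the edge `(q, x)`. -/
noncomputable def cnt (w : FreeGroup α) (q : FreeGroup α ⧸ N) : ℤ :=
  Multiplicative.toAdd ((cross N x w).left q)

theorem cross_right (w : FreeGroup α) : (cross N x w).right = (w : FreeGroup α ⧸ N) := by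
  have h : RegularWreathProduct.rightHom.comp (cross N x) = QuotientGroup.mk' N := by
    apply FreeGroup.ext_hom
    intro y
    simp [cross, RegularWreathProduct.rightHom]
  exact DFunLike.congr_fun h w

theorem cnt_mul (u v : FreeGroup α) (q : FreeGroup α ⧸ N) :
    cnt N x (u * v) q = cnt N x u q + cnt N x v ((u : FreeGroup α ⧸ N)⁻¹ * q) := by
  unfold cnt
  rw [map_mul, RegularWreathProduct.mul_left, Pi.mul_apply, cross_right, toAdd_mul]

open Classical in
theorem cnt_of (y : α) (q : FreeGroup α ⧸ N) :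
    cnt N x (FreeGroup.of y) q = if y = x ∧ q = 1 then 1 else 0 := by
  unfold cnt cross
  rw [FreeGroup.lift_apply_of]
  split_ifs <;> simp_all

theorem cnt_one (q : FreeGroup α ⧸ N) : cnt N x 1 q = 0 := by
  unfold cnt
  rw [map_one]
  rfl

open Classical in
theorem cnt_inv (y : α) (q : FreeGroup α ⧸ N) :
    cnt N x (FreeGroup.of y)⁻¹ q =
      if y = x ∧ ((FreeGroup.of y : FreeGroup α) : FreeGroup α ⧸ N) * q = 1 then -1 else 0 := by
  have h := cnt_mul N x (FreeGroup.of y) (FreeGroup.of y)⁻¹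
    (((FreeGroup.of y : FreeGroup α) : FreeGroup α ⧸ N) * q)
  rw [mul_inv_cancel, cnt_one, cnt_of, inv_mul_cancel_left] at h
  split_ifs at h ⊢ <;> omega

theorem cnt_commutator (w : FreeGroup α) (hw : w ∈ ⁅N, N⁆) (q : FreeGroup α ⧸ N) :
    cnt N x w q = 0 := by
  have h : ⁅N, N⁆ ≤ (cross N x).ker := by
    rw [Subgroup.commutator_le]
    intro g hg h hh
    rw [MonoidHom.mem_ker, map_commutatorElement, commutatorElement_eq_one_iff_mul_comm]
    have h1 : (cross N x g).right = 1 := by
      rw [cross_right, QuotientGroup.eq_one_iff]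
      exact hg
    have h2 : (cross N x h).right = 1 := by
      rw [cross_right, QuotientGroup.eq_one_iff]
      exact hh
    apply RegularWreathProduct.ext
    · funext t
      simp only [RegularWreathProduct.mul_left, Pi.mul_apply, h1, h2, inv_one, one_mul]
      rw [mul_comm]
    · simp only [RegularWreathProduct.mul_right, h1, h2]
  have h1 := h hw
  rw [MonoidHom.mem_ker] at h1
  unfold cnt
  rw [h1]
  rfl

theorem mk_cons (a : α × Bool) (L : List (α × Bool)) :
    FreeGroup.mk (a :: L) = FreeGroup.mk [a] * FreeGroup.mk L := by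
  rw [FreeGroup.mul_mk]
  rfl

theorem mk_true (y : α) : FreeGroup.mk [(y, true)] = FreeGroup.of y := rfl

theorem mk_false (y : α) : FreeGroup.mk [(y, false)] = (FreeGroup.of y)⁻¹ := rfl

theorem find_pos (L : List (α × Bool)) : ∀ q : FreeGroup α ⧸ N, 0 < cnt N x (FreeGroup.mk L) q →
    ∃ L₁ L₂ : List (α × Bool), L = L₁ ++ (x, true) :: L₂ ∧
      ((FreeGroup.mk L₁ : FreeGroup α) : FreeGroup α ⧸ N) = q := by
  classical
  induction L with
  | nil =>
    intro q hq
    rw [show FreeGroup.mk ([] : List (α × Bool)) = 1 from rfl, cnt_one] at hq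
    omega
  | cons a L ih =>
    intro q hq
    rw [mk_cons, cnt_mul] at hq
    by_cases h : 0 < cnt N x (FreeGroup.mk [a]) q
    · obtain ⟨y, b⟩ := a
      cases b with
      | true =>
        rw [mk_true, cnt_of] at h
        split_ifs at h with hc
        · exact ⟨[], L, by rw [hc.1]; rfl, by rw [hc.2]; rfl⟩
        · omega
      | false =>
        rw [mk_false, cnt_inv] at h
        split_ifs at h <;> omega
    · obtain ⟨L₁, L₂, h1, h2⟩ := ih _ (by omega : 0 < cnt N x (FreeGroup.mk L)
        (((FreeGroup.mk [a] : FreeGroup α) : FreeGroup α ⧸ N)⁻¹ * q))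
      refine ⟨a :: L₁, L₂, by rw [h1]; rfl, ?_⟩
      rw [mk_cons, QuotientGroup.mk_mul, h2, mul_inv_cancel_left]

theorem find_neg (L : List (α × Bool)) : ∀ q : FreeGroup α ⧸ N, cnt N x (FreeGroup.mk L) q < 0 →
    ∃ L₁ L₂ : List (α × Bool), L = L₁ ++ (x, false) :: L₂ ∧
      ((FreeGroup.mk L₁ : FreeGroup α) : FreeGroup α ⧸ N) *
        ((FreeGroup.of x : FreeGroup α) : FreeGroup α ⧸ N)⁻¹ = q := by
  classical
  induction L with
  | nil =>
    intro q hq
    rw [show FreeGroup.mk ([] : List (α × Bool)) = 1 from rfl, cnt_one] at hq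
    omega
  | cons a L ih =>
    intro q hq
    rw [mk_cons, cnt_mul] at hq
    by_cases h : cnt N x (FreeGroup.mk [a]) q < 0
    · obtain ⟨y, b⟩ := a
      cases b with
      | true =>
        rw [mk_true, cnt_of] at h
        split_ifs at h <;> omega
      | false =>
        rw [mk_false, cnt_inv] at h
        split_ifs at h with hc
        · refine ⟨[], L, by rw [hc.1]; rfl, ?_⟩
          rw [show FreeGroup.mk ([] : List (α × Bool)) = 1 from rfl, QuotientGroup.mk_one, one_mul,
            ← hc.1, eq_comm]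
          exact eq_inv_of_mul_eq_one_right hc.2
        · omega
    · obtain ⟨L₁, L₂, h1, h2⟩ := ih _ (by omega : cnt N x (FreeGroup.mk L)
        (((FreeGroup.mk [a] : FreeGroup α) : FreeGroup α ⧸ N)⁻¹ * q) < 0)
      refine ⟨a :: L₁, L₂, by rw [h1]; rfl, ?_⟩
      rw [mk_cons, QuotientGroup.mk_mul, mul_assoc, h2, mul_inv_cancel_left]

end Cross

section Step

variable {α : Type} [DecidableEq α] (N : Subgroup (FreeGroup α)) [N.Normal]

theorem conclude (m : ℕ) (hm : ∀ w ∈ N, w ≠ 1 → m ≤ w.norm) (w : FreeGroup α) (hw : w ∈ ⁅N, N⁆)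
    (hw1 : w ≠ 1) (hmin : ∀ v ∈ ⁅N, N⁆, v ≠ 1 → w.norm ≤ v.norm) (a : FreeGroup α)
    (L₁ L₂ : List (α × Bool)) (he : w = a * FreeGroup.mk L₁ * a⁻¹ * FreeGroup.mk L₂)
    (hL : w.norm = 2 + L₁.length + L₂.length) (hN : FreeGroup.mk L₁ ∈ N) :
    2 * m + 2 ≤ w.norm := by
  have hwN : w ∈ N := Subgroup.commutator_le_left N N hw
  have h1 : a * FreeGroup.mk L₁ * a⁻¹ ∈ N := Subgroup.Normal.conj_mem inferInstance _ hN a
  have h2 : FreeGroup.mk L₂ ∈ N := by
    rw [he] at hwN
    exact (N.mul_mem_cancel_left h1).1 hwN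
  have n1 : (FreeGroup.mk L₁).norm ≤ L₁.length := FreeGroup.norm_mk_le
  have n2 : (FreeGroup.mk L₂).norm ≤ L₂.length := FreeGroup.norm_mk_le
  have h3 : FreeGroup.mk L₁ ≠ 1 := by
    intro h
    have : w = FreeGroup.mk L₂ := by
      rw [he, h]
      group
    rw [this] at hL
    omega
  have h4 : FreeGroup.mk L₂ ≠ 1 := by
    intro h
    have h5 : FreeGroup.mk L₁ = a⁻¹ * w * a⁻¹⁻¹ := by
      rw [he, h]
      group
    have h6 : FreeGroup.mk L₁ ∈ ⁅N, N⁆ := by
      rw [h5]
      exact Subgroup.Normal.conj_mem inferInstance _ hw a⁻¹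
    have := hmin _ h6 h3
    omega
  have h5 := hm _ hN h3
  have h6 := hm _ h2 h4
  omega

theorem step (m : ℕ) (hm : ∀ w ∈ N, w ≠ 1 → m ≤ w.norm) :
    ∀ w ∈ ⁅N, N⁆, w ≠ 1 → 2 * m + 2 ≤ w.norm := by
  classical
  intro w₀ hw₀ hw₀1
  have hex : ∃ n, ∃ w ∈ ⁅N, N⁆, w ≠ 1 ∧ w.norm = n := ⟨_, w₀, hw₀, hw₀1, rfl⟩
  obtain ⟨w, hw, hw1, hn⟩ := Nat.find_spec hex
  have hmin : ∀ v ∈ ⁅N, N⁆, v ≠ 1 → w.norm ≤ v.norm := fun v hv hv1 => by
    rw [hn]
    exact Nat.find_min' hex ⟨v, hv, hv1, rfl⟩
  refine le_trans ?_ (hmin w₀ hw₀ hw₀1)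
  have hmk : FreeGroup.mk w.toWord = w := FreeGroup.mk_toWord
  have hlen : w.norm = w.toWord.length := rfl
  cases hL : w.toWord with
  | nil => exact absurd (FreeGroup.toWord_eq_nil_iff.1 hL) hw1
  | cons a L =>
    obtain ⟨x, b⟩ := a
    rw [hL] at hmk hlen
    have hc := cnt_commutator N x w hw
    rw [← hmk] at hc
    cases b with
    | true =>
      have h1 := hc 1
      rw [mk_cons, cnt_mul, mk_true, cnt_of, if_pos ⟨rfl, rfl⟩, mul_one] at h1
      obtain ⟨L₁, L₂, h2, h3⟩ := find_neg N x L _ (by omega : cnt N x (FreeGroup.mk L)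
        (((FreeGroup.of x : FreeGroup α) : FreeGroup α ⧸ N)⁻¹) < 0)
      rw [mul_eq_right, QuotientGroup.eq_one_iff] at h3
      refine conclude N m hm w hw hw1 hmin (FreeGroup.of x) L₁ L₂ ?_ ?_ h3
      · rw [← hmk, h2, mk_cons, mk_true, ← FreeGroup.mul_mk, mk_cons (x, false), mk_false]
        group
      · rw [hlen, h2]
        simp only [List.length_cons, List.length_append]
        omega
    | false =>
      have h1 := hc (((FreeGroup.of x : FreeGroup α) : FreeGroup α ⧸ N)⁻¹)
      rw [mk_cons, cnt_mul, mk_false, cnt_inv, if_pos ⟨rfl, mul_inv_cancel _⟩,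
        QuotientGroup.mk_inv, inv_inv, mul_inv_cancel] at h1
      obtain ⟨L₁, L₂, h2, h3⟩ := find_pos N x L _ (by omega : 0 < cnt N x (FreeGroup.mk L) 1)
      rw [QuotientGroup.eq_one_iff] at h3
      refine conclude N m hm w hw hw1 hmin (FreeGroup.of x)⁻¹ L₁ L₂ ?_ ?_ h3
      · rw [← hmk, h2, mk_cons, mk_false, ← FreeGroup.mul_mk, mk_cons (x, true), mk_true]
        group
      · rw [hlen, h2]
        simp only [List.length_cons, List.length_append]
        omega

end Step

/-- Nontrivial elements of the `d`-th derived subgroup of a free group have length at least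
`3 * 2 ^ d - 2`. -/
theorem norm_of_mem_derived {α : Type} [DecidableEq α] (w : FreeGroup α) (hw : w ≠ 1) (d : ℕ)
    (h : w ∈ derivedSeries (FreeGroup α) d) : 3 * 2 ^ d ≤ w.norm + 2 := by
  have key : ∀ d : ℕ, ∀ w ∈ derivedSeries (FreeGroup α) d, w ≠ 1 → 3 * 2 ^ d - 2 ≤ w.norm := by
    intro d
    induction d with
    | zero =>
      intro w _ hw
      have : w.norm ≠ 0 := fun h => hw (FreeGroup.norm_eq_zero.1 h)
      simp only [pow_zero]
      omega
    | succ d ih =>
      intro w hwd hw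
      rw [derivedSeries_succ] at hwd
      have := step (derivedSeries (FreeGroup α) d) _ ih w hwd hw
      have hp : 1 ≤ 2 ^ d := Nat.one_le_two_pow
      rw [pow_succ]
      omega
  have := key d w h hw
  omega

end Vale.Agent.P215.H891
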